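import Vale.Agent.P322X.Kap

/-! The exact-touching plane certificate: for `(A,B)` the entropy `pairY ρ s t` lies above a plane
in `(c, d, (ψ s + ψ t)/2)` touching at `(s,t) = (A+B, A-B)`, with coefficient
`β = log (4/((1+A)²-ρ²B²)) / log (4/((1+A)²-B²))`. -/

namespace Vale.Agent.P322X

open Set Real
open Vale.Agent.P322V

/-- The chain rule, applied to both sides. -/
lemma pair_id {ρ β c d : ℝ} (hc0 : -1 < c) (hc1 : c < 1) :
    pairY ρ (c + d) (c - d) - β * ((psi (c + d) + psi (c - d)) / 2)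
      = (1 - β) * psi c + (1 + c) / 2 * kap ρ β (d / (1 + c))
        + (1 - c) / 2 * kap ρ β (d / (1 - c)) := by
  have id1 := Vale.Agent.P322W.phi_identity (c := c) (d := d) hc0 hc1
  have id2 := Vale.Agent.P322W.phi_identity (c := c) (d := ρ * d) hc0 hc1
  have e1 : (c + d + (c - d)) / 2 = c := by ring
  have e2 : (c + d - (c - d)) / 2 = d := by ring
  unfold pairY
  rw [e1, e2, id1, id2]
  unfold kap dl
  have e3 : ρ * d / (1 + c) = ρ * (d / (1 + c)) := by ring
  have e4 : ρ * d / (1 - c) = ρ * (d / (1 - c)) := by ring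
  rw [e3, e4]
  ring

/-- Divergence bound: the algebraic part of the chain. -/
lemma chain_alg {ρ β y b t q r qs rs : ℝ} (hb0 : 0 < b) (hb : b ≤ 1 / 2) (ht0 : 0 ≤ t) (ht : t ≤ 1 / 2)
    (hy : 0 ≤ y) (hqs : 0 < qs)
    (hrel : qs * (1 - b) = rs * b)
    (hom : om ρ β qs = y * (-Real.log (1 - b)))
    (hPQ : (1 - t) * q = t * r) :
    y * ((1 - t) * (-Real.log (1 - b)) + t * (-Real.log b) - Real.binEntropy t)
      ≤ om ρ β qs / qs ^ 2 * ((1 - t) * (q - qs) ^ 2 + t * (r - rs) ^ 2) := by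
  set La := -Real.log (1 - b) with hLa
  have hK4 := K4 hb0 hb ht0 ht
  rw [← hLa] at hK4
  have hLa0 : 0 ≤ La := by
    have : Real.log (1 - b) ≤ 0 := Real.log_nonpos (by linarith) (by linarith)
    rw [hLa]
    linarith
  -- K3
  have hK3 : (qs / b * (t - b)) ^ 2 ≤ (1 - t) * (q - qs) ^ 2 + t * (r - rs) ^ 2 := by
    have e : qs / b * (t - b) = (1 - t) * (q - qs) - t * (r - rs) := by
      have hrs : rs = qs * (1 - b) / b := by
        field_simp
        linarith
      have e1 : (1 - t) * (q - qs) - t * (r - rs) = t * rs - (1 - t) * qs := by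
        linear_combination hPQ
      rw [e1, hrs]
      field_simp
      ring
    rw [e]
    have h0 : 0 ≤ t * (1 - t) * ((q - qs) + (r - rs)) ^ 2 := by
      apply mul_nonneg (mul_nonneg ht0 (by linarith)) (sq_nonneg _)
    nlinarith
  have hc0 : 0 ≤ om ρ β qs / qs ^ 2 := by
    rw [hom]
    positivity
  have h1 := mul_le_mul_of_nonneg_left hK3 hc0
  have e2 : om ρ β qs / qs ^ 2 * (qs / b * (t - b)) ^ 2 = y * La * ((t - b) ^ 2 / b ^ 2) := by
    rw [hom]
    field_simp
  rw [e2] at h1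
  refine le_trans ?_ h1
  have h3 : (1 - t) * La + t * (-Real.log b) - Real.binEntropy t ≤ La * ((t - b) ^ 2 / b ^ 2) := by
    have hb2 : 0 < b ^ 2 := by positivity
    rw [mul_div_assoc', le_div_iff₀ hb2]
    linarith
  have := mul_le_mul_of_nonneg_left h3 hy
  linarith

/-- The binary entropy of `(1-c)/2` is `ψ c`. -/
lemma binEntropy_eq_psi (c : ℝ) : Real.binEntropy ((1 - c) / 2) = psi c := by
  unfold psi
  rw [← Real.binEntropy_one_sub]
  congr 1
  ring

/-- The main inequality in the quadrant `c ≥ 0`, `d ≥ 0`, interior touching point. -/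
lemma main_interior {ρ β b qs rs c d : ℝ} (hρ0 : 0 ≤ ρ) (hρ1 : ρ ≤ 1) (hβ : ρ ^ 2 ≤ β) (hβ1 : β ≤ 1)
    (hb0 : 0 < b) (hb : b ≤ 1 / 2) (hqs : 0 < qs) (hqr : qs ≤ rs) (hrs : rs < 1)
    (hrel : qs * (1 - b) = rs * b)
    (hom : om ρ β qs = (1 - β) * (-Real.log (1 - b)))
    (hc0 : 0 ≤ c) (hc1 : c < 1) (hd0 : 0 ≤ d) (hdp : d ≤ 1 - c) :
    (kap1 ρ β qs + kap1 ρ β rs) / 2 * d - (om ρ β rs - (1 - β) * (-Real.log b)) / 2 * (1 - c)
        + β * ((psi (c + d) + psi (c - d)) / 2) ≤ pairY ρ (c + d) (c - d) := by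
  have hP : 0 < 1 + c := by linarith
  have hQ : 0 < 1 - c := by linarith
  set q := d / (1 + c) with hq
  set r := d / (1 - c) with hr
  set t := (1 - c) / 2 with ht
  have ht0 : 0 ≤ t := by rw [ht]; linarith
  have ht1 : t ≤ 1 / 2 := by rw [ht]; linarith
  have hq0 : 0 ≤ q := div_nonneg hd0 hP.le
  have hr0 : 0 ≤ r := div_nonneg hd0 hQ.le
  have hq1 : q ≤ 1 := by
    rw [hq, div_le_one hP]
    linarith
  have hr1 : r ≤ 1 := by
    rw [hr, div_le_one hQ]
    exact hdp
  have hdq : d = (1 + c) * q := by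
    rw [hq]; field_simp
  have hdr : d = (1 - c) * r := by
    rw [hr]; field_simp
  have hPQ : (1 - t) * q = t * r := by
    rw [ht]
    linear_combination (1 / 2) * hdq.symm.trans hdr
  have hchain := chain_alg (ρ := ρ) (β := β) (y := 1 - β) (r := r) (q := q) (qs := qs) (rs := rs)
    hb0 hb ht0 ht1 (by linarith) hqs hrel hom hPQ
  have hrs0 : 0 < rs := by linarith
  have k1 := K1 (β := β) (x := q) hρ0 hρ1 hβ hqs (by linarith) hq0 hq1
  have k1' := K1 (β := β) (x := r) hρ0 hρ1 hβ hrs0 hrs hr0 hr1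
  have k2 := K2 (β := β) hρ0 hρ1 hβ hqs hqr hrs
  have hid := pair_id (ρ := ρ) (β := β) (c := c) (d := d) (by linarith) hc1
  rw [← hq, ← hr] at hid
  have hent : Real.binEntropy t = psi c := binEntropy_eq_psi c
  rw [hent] at hchain
  have e1t : 1 - t = (1 + c) / 2 := by rw [ht]; ring
  rw [e1t] at hchain
  -- the three Bregman terms
  have k1p := mul_le_mul_of_nonneg_left k1 (show 0 ≤ (1 + c) / 2 by linarith)
  have k1q := mul_le_mul_of_nonneg_left k1' (show 0 ≤ t by exact ht0)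
  have k2q : om ρ β qs / qs ^ 2 * (t * (r - rs) ^ 2) ≤ om ρ β rs / rs ^ 2 * (t * (r - rs) ^ 2) :=
    mul_le_mul_of_nonneg_right k2 (mul_nonneg ht0 (sq_nonneg _))
  have e2 : om ρ β qs = qs * kap1 ρ β qs - kap ρ β qs := rfl
  have e3 : om ρ β rs = rs * kap1 ρ β rs - kap ρ β rs := rfl
  have e4 : (1 - c) = 2 * t := by rw [ht]; ring
  rw [e1t] at hPQ
  have hdp2 : d / 2 = (1 + c) / 2 * q := by rw [hdq]; ring
  have hdt : d / 2 = t * r := by rw [hdr, e4]; ring
  -- rewrite everything in the Bregman form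
  have hBreg : (kap1 ρ β qs + kap1 ρ β rs) / 2 * d
        - (om ρ β rs - (1 - β) * (-Real.log b)) / 2 * (1 - c)
        = (1 + c) / 2 * q * kap1 ρ β qs + t * r * kap1 ρ β rs
          - t * (om ρ β rs - (1 - β) * (-Real.log b)) := by
    rw [← hdp2, ← hdt, e4]
    ring
  have hfin : (1 + c) / 2 * (kap ρ β q - kap ρ β qs - kap1 ρ β qs * (q - qs))
        + t * (kap ρ β r - kap ρ β rs - kap1 ρ β rs * (r - rs))
      = (1 + c) / 2 * kap ρ β q + t * kap ρ β r - (1 + c) / 2 * q * kap1 ρ β qs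
        - t * r * kap1 ρ β rs + (1 + c) / 2 * om ρ β qs + t * om ρ β rs := by
    rw [e2, e3]
    ring
  have e5 : (1 - c) / 2 = t := rfl
  rw [e5] at hid
  rw [hBreg]
  rw [hom] at hfin k1p hchain
  have hcombo : (1 - β) * ((1 + c) / 2 * (-Real.log (1 - b)) + t * (-Real.log b) - psi c)
      ≤ (1 + c) / 2 * (kap ρ β q - kap ρ β qs - kap1 ρ β qs * (q - qs))
        + t * (kap ρ β r - kap ρ β rs - kap1 ρ β rs * (r - rs)) := by
    have hk2' : ((1 - β) * (-Real.log (1 - b))) / qs ^ 2 * (t * (r - rs) ^ 2)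
        ≤ om ρ β rs / rs ^ 2 * (t * (r - rs) ^ 2) := by
      rw [← hom]; exact k2q
    have e7 : ((1 - β) * (-Real.log (1 - b))) / qs ^ 2 * ((1 + c) / 2 * (q - qs) ^ 2 + t * (r - rs) ^ 2)
        = (1 + c) / 2 * (((1 - β) * (-Real.log (1 - b))) / qs ^ 2 * (q - qs) ^ 2)
          + ((1 - β) * (-Real.log (1 - b))) / qs ^ 2 * (t * (r - rs) ^ 2) := by ring
    have e8 : t * (om ρ β rs / rs ^ 2 * (r - rs) ^ 2) = om ρ β rs / rs ^ 2 * (t * (r - rs) ^ 2) := by
      ring
    linarith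
  have hid' : pairY ρ (c + d) (c - d) = β * ((psi (c + d) + psi (c - d)) / 2)
      + ((1 - β) * psi c + (1 + c) / 2 * kap ρ β q + t * kap ρ β r) := by
    linarith
  rw [hid']
  linarith

/-- The main inequality on the edge `s = 1`, touching point with `rs = 1`. -/
lemma main_edge {ρ β b qs c d : ℝ} (hρ0 : 0 ≤ ρ) (hρ1 : ρ ≤ 1) (hβ : ρ ^ 2 ≤ β) (hβ1 : β ≤ 1)
    (hb0 : 0 < b) (hb : b ≤ 1 / 2) (hqs : 0 < qs) (hqs1 : qs < 1)
    (hrel : qs * (1 - b) = 1 * b)
    (hom : om ρ β qs = (1 - β) * (-Real.log (1 - b)))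
    (hc0 : 0 ≤ c) (hc1 : c < 1) (hd : d = 1 - c) :
    (kap1 ρ β qs + kap ρ β 1 + (1 - β) * (-Real.log b)) / 2 * d
        + β * ((psi (c + d) + psi (c - d)) / 2) ≤ pairY ρ (c + d) (c - d) := by
  have hP : 0 < 1 + c := by linarith
  have hQ : 0 < 1 - c := by linarith
  set q := d / (1 + c) with hq
  set t := (1 - c) / 2 with ht
  have ht0 : 0 ≤ t := by rw [ht]; linarith
  have ht1 : t ≤ 1 / 2 := by rw [ht]; linarith
  have hq0 : 0 ≤ q := div_nonneg (by rw [hd]; exact hQ.le) hP.le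
  have hq1 : q ≤ 1 := by
    rw [hq, div_le_one hP, hd]
    linarith
  have hr : d / (1 - c) = 1 := by
    rw [hd]
    exact div_self hQ.ne'
  have hdq : d = (1 + c) * q := by
    rw [hq]; field_simp
  have hPQ : (1 - t) * q = t * 1 := by
    have e1 : 1 - t = (1 + c) / 2 := by rw [ht]; ring
    rw [e1, mul_one, ht]
    linear_combination (1 / 2) * hdq.symm.trans hd
  have hchain := chain_alg (ρ := ρ) (β := β) (y := 1 - β) (r := 1) (q := q) (qs := qs) (rs := 1)
    hb0 hb ht0 ht1 (by linarith) hqs hrel hom hPQ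
  have k1 := K1 (β := β) (x := q) hρ0 hρ1 hβ hqs hqs1 hq0 hq1
  have hid := pair_id (ρ := ρ) (β := β) (c := c) (d := d) (by linarith) hc1
  rw [← hq, hr] at hid
  have hent : Real.binEntropy t = psi c := binEntropy_eq_psi c
  rw [hent] at hchain
  have e1t : 1 - t = (1 + c) / 2 := by rw [ht]; ring
  rw [e1t] at hchain
  have k1p := mul_le_mul_of_nonneg_left k1 (show 0 ≤ (1 + c) / 2 by linarith)
  have e2 : om ρ β qs = qs * kap1 ρ β qs - kap ρ β qs := rfl
  have e5 : (1 - c) / 2 = t := rfl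
  rw [e5] at hid
  have e4 : d = 2 * t := by rw [hd, ht]; ring
  have hdp2 : t = (1 + c) / 2 * q := by
    have : d / 2 = (1 + c) / 2 * q := by rw [hdq]; ring
    rw [e4] at this
    linarith
  have hid' : pairY ρ (c + d) (c - d) = β * ((psi (c + d) + psi (c - d)) / 2)
      + ((1 - β) * psi c + (1 + c) / 2 * kap ρ β q + t * kap ρ β 1) := by
    linarith
  rw [hid']
  have hfin : (1 + c) / 2 * (kap ρ β q - kap ρ β qs - kap1 ρ β qs * (q - qs))
      = (1 + c) / 2 * kap ρ β q - t * kap1 ρ β qs + (1 + c) / 2 * om ρ β qs := by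
    rw [e2, hdp2]
    ring
  have e6 : (kap1 ρ β qs + kap ρ β 1 + (1 - β) * (-Real.log b)) / 2 * d
      = t * kap1 ρ β qs + t * kap ρ β 1 + t * ((1 - β) * (-Real.log b)) := by
    rw [e4]
    ring
  rw [e6]
  rw [hom] at hfin k1p hchain
  have e7 : ((1 - β) * (-Real.log (1 - b))) / qs ^ 2 * ((1 + c) / 2 * (q - qs) ^ 2 + t * (1 - 1) ^ 2)
      = (1 + c) / 2 * (((1 - β) * (-Real.log (1 - b))) / qs ^ 2 * (q - qs) ^ 2) := by ring
  rw [e7] at hchain
  linarith

lemma ath_nonneg {x : ℝ} (h0 : 0 ≤ x) (h1 : x < 1) : 0 ≤ ath x := by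
  unfold ath
  have : 1 ≤ (1 + x) / (1 - x) := by
    rw [one_le_div (by linarith)]
    linarith
  have := Real.log_nonneg this
  linarith

lemma kap1_nonneg {ρ β x : ℝ} (hρ0 : 0 ≤ ρ) (hρ1 : ρ ≤ 1) (hβ : ρ ^ 2 ≤ β) (h0 : 0 ≤ x) (h1 : x < 1) :
    0 ≤ kap1 ρ β x := by
  unfold kap1
  have h2 := Vale.Agent.P322W.ath_mul_le hρ0 hρ1 h0 h1
  have h3 := ath_nonneg h0 h1
  have h4 := mul_le_mul_of_nonneg_left h2 hρ0
  have h5 := mul_le_mul_of_nonneg_right hβ h3
  nlinarith

/-- The coefficient of the certificate. -/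
noncomputable def bet (ρ A B : ℝ) : ℝ :=
  Real.log (4 / ((1 + A) ^ 2 - (ρ * B) ^ 2)) / Real.log (4 / ((1 + A) ^ 2 - B ^ 2))

/-- Elementary facts on the coefficient. -/
lemma bet_facts {ρ A B : ℝ} (hρ0 : 0 ≤ ρ) (hρ1 : ρ ≤ 1) (hA : 0 ≤ A) (hB0 : 0 < B) (hB : B ≤ 1 / 2)
    (hAB : A + B ≤ 1) :
    ρ ^ 2 ≤ bet ρ A B ∧ bet ρ A B ≤ 1 ∧
      om ρ (bet ρ A B) (B / (1 + A)) = (1 - bet ρ A B) * (-Real.log (1 - (1 - A) / 2)) := by
  set T := 1 + A with hT
  have hT1 : 1 ≤ T := by rw [hT]; linarith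
  have hT2 : T + B ≤ 2 := by rw [hT]; linarith
  set S1 := T ^ 2 - B ^ 2 with hS1
  set Sr := T ^ 2 - (ρ * B) ^ 2 with hSr
  have hρ2 : ρ ^ 2 ≤ 1 := by nlinarith
  have hmul : (ρ * B) ^ 2 = ρ ^ 2 * B ^ 2 := by ring
  have hS1p : 3 / 4 ≤ S1 := by rw [hS1]; nlinarith
  have hS1u : S1 ≤ 4 * (1 - B) := by rw [hS1]; nlinarith
  have hSS : S1 ≤ Sr := by
    rw [hS1, hSr, hmul]
    nlinarith [sq_nonneg B]
  have hS1pos : 0 < S1 := by linarith
  have hSrpos : 0 < Sr := by linarith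
  have hSrT : Sr ≤ T ^ 2 := by
    rw [hSr]
    nlinarith [sq_nonneg (ρ * B)]
  have hT4 : T ^ 2 < 4 := by nlinarith
  have hLL1 : 0 < Real.log (4 / S1) := by
    apply Real.log_pos
    rw [one_lt_div hS1pos]
    linarith
  have hLLr : Real.log (4 / Sr) ≤ Real.log (4 / S1) := by
    apply Real.log_le_log (by positivity)
    exact div_le_div_of_nonneg_left (by norm_num) hS1pos hSS
  have hbet : bet ρ A B = Real.log (4 / Sr) / Real.log (4 / S1) := rfl
  have hβmul : bet ρ A B * Real.log (4 / S1) = Real.log (4 / Sr) := by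
    rw [hbet]
    field_simp
  have hlog1 : Real.log (4 / S1) = 2 * Real.log 2 - Real.log S1 := by
    rw [Real.log_div (by norm_num) hS1pos.ne']
    have : (4 : ℝ) = 2 ^ 2 := by norm_num
    rw [this, Real.log_pow]
    norm_num
  have hlogr : Real.log (4 / Sr) = 2 * Real.log 2 - Real.log Sr := by
    rw [Real.log_div (by norm_num) hSrpos.ne']
    have : (4 : ℝ) = 2 ^ 2 := by norm_num
    rw [this, Real.log_pow]
    norm_num
  refine ⟨?_, ?_, ?_⟩
  · rw [hbet, le_div_iff₀ hLL1]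
    -- `log (4/S1) ≥ B²/S1`
    have h1 : B ^ 2 / S1 ≤ Real.log (4 / S1) := by
      have h2 : 1 - S1 / 4 ≤ Real.log (4 / S1) := by
        have := Real.one_sub_inv_le_log_of_pos (show 0 < 4 / S1 by positivity)
        have e : (4 / S1)⁻¹ = S1 / 4 := by field_simp
        rwa [e] at this
      have h3 : B ^ 2 / S1 ≤ 1 - S1 / 4 := by
        rw [div_le_iff₀ hS1pos]
        nlinarith
      linarith
    -- `log (Sr/S1) ≤ (1-ρ²) B²/S1`
    have h4 : Real.log (Sr / S1) ≤ (1 - ρ ^ 2) * (B ^ 2 / S1) := by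
      have := Real.log_le_sub_one_of_pos (show 0 < Sr / S1 by positivity)
      have e : Sr / S1 - 1 = (1 - ρ ^ 2) * (B ^ 2 / S1) := by
        have : Sr - S1 = (1 - ρ ^ 2) * B ^ 2 := by
          rw [hS1, hSr, hmul]
          ring
        field_simp
        linarith
      rwa [e] at this
    have h5 : Real.log (4 / Sr) = Real.log (4 / S1) - Real.log (Sr / S1) := by
      rw [Real.log_div hSrpos.ne' hS1pos.ne', hlog1, hlogr]
      ring
    rw [h5]
    have h6 : 0 ≤ 1 - ρ ^ 2 := by linarith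
    nlinarith [mul_le_mul_of_nonneg_left h1 h6]
  · rw [hbet, div_le_one hLL1]
    exact hLLr
  · have hT0 : T ≠ 0 := by linarith
    have hqs : |B / T| < 1 := by
      rw [abs_of_pos (by positivity), div_lt_one (by linarith)]
      linarith
    rw [om_eq hρ0 hρ1 hqs]
    have e1 : 1 - (ρ * (B / T)) ^ 2 = Sr / T ^ 2 := by
      rw [hSr]
      field_simp
    have e2 : 1 - (B / T) ^ 2 = S1 / T ^ 2 := by
      rw [hS1]
      field_simp
    have e3 : 1 - (1 - A) / 2 = T / 2 := by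
      rw [hT]
      ring
    rw [e1, e2, e3, Real.log_div hSrpos.ne' (by positivity), Real.log_div hS1pos.ne' (by positivity),
      Real.log_div hT0 (by norm_num), Real.log_pow]
    rw [hlog1, hlogr] at hβmul
    push_cast
    linear_combination (1 / 2) * hβmul

/-- Reduction of the full square to the quadrant. -/
lemma square_of_quadrant {ρ α γ β : ℝ} (hα : 0 ≤ α) (hγ : 0 ≤ γ)
    (hQ : ∀ c d : ℝ, 0 ≤ c → 0 ≤ d → c + d ≤ 1 →
      α * d - γ * (1 - c) + β * ((psi (c + d) + psi (c - d)) / 2) ≤ pairY ρ (c + d) (c - d))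
    {s t : ℝ} (hs : |s| ≤ 1) (ht : |t| ≤ 1) :
    α * ((s - t) / 2) - γ * (1 - (s + t) / 2) + β * ((psi s + psi t) / 2) ≤ pairY ρ s t := by
  have hs' := abs_le.mp hs
  have ht' := abs_le.mp ht
  set c := (s + t) / 2 with hc
  set d := (s - t) / 2 with hd
  have es : s = c + d := by rw [hc, hd]; ring
  have et : t = c - d := by rw [hc, hd]; ring
  have hpos : ∀ x y : ℝ, pairY ρ x y = pairY ρ (-x) (-y) := by
    intro x y
    unfold pairY
    have e1 : (-x + -y) / 2 + ρ * ((-x - -y) / 2) = -((x + y) / 2 + ρ * ((x - y) / 2)) := by ring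
    have e2 : (-x + -y) / 2 - ρ * ((-x - -y) / 2) = -((x + y) / 2 - ρ * ((x - y) / 2)) := by ring
    rw [e1, e2, psi_neg, psi_neg]
  rcases le_total 0 c with hc0 | hc0 <;> rcases le_total 0 d with hd0 | hd0
  · have := hQ c d hc0 hd0 (by linarith [hs'.2])
    rw [← es, ← et] at this
    exact this
  · have := hQ c (-d) hc0 (by linarith) (by linarith [ht'.2])
    have e1 : c + -d = t := by rw [et]; ring
    have e2 : c - -d = s := by rw [es]; ring
    rw [e1, e2, pairY_comm] at this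
    have h1 : α * d ≤ α * (-d) := mul_le_mul_of_nonneg_left (by linarith) hα
    linarith
  · have := hQ (-c) d (by linarith) hd0 (by linarith [ht'.1])
    have e1 : -c + d = -t := by rw [et]; ring
    have e2 : -c - d = -s := by rw [es]; ring
    rw [e1, e2, psi_neg, psi_neg, ← hpos, pairY_comm] at this
    have h1 : γ * (1 + c) ≤ γ * (1 - c) := mul_le_mul_of_nonneg_left (by linarith) hγ
    have e3 : γ * (1 - -c) = γ * (1 + c) := by ring
    rw [e3] at this
    linarith
  · have := hQ (-c) (-d) (by linarith) (by linarith) (by linarith [hs'.1])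
    have e1 : -c + -d = -s := by rw [es]; ring
    have e2 : -c - -d = -t := by rw [et]; ring
    rw [e1, e2, psi_neg, psi_neg, ← hpos] at this
    have h1 : γ * (1 + c) ≤ γ * (1 - c) := mul_le_mul_of_nonneg_left (by linarith) hγ
    have h2 : α * d ≤ α * (-d) := mul_le_mul_of_nonneg_left (by linarith) hα
    have e3 : γ * (1 - -c) = γ * (1 + c) := by ring
    rw [e3] at this
    linarith

/-- The exact-touching plane certificate. -/
theorem plane_cert {ρ A B : ℝ} (hρ0 : 0 ≤ ρ) (hρ1 : ρ ≤ 1) (hA : 0 ≤ A) (hB0 : 0 < B) (hB : B ≤ 1 / 2)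
    (hAB : A + B ≤ 1) :
    ∃ k p q : ℝ,
      (∀ s t : ℝ, |s| ≤ 1 → |t| ≤ 1 → (A + B = 1 → s = 1) →
        k + p * ((s + t) / 2) + q * ((s - t) / 2) + bet ρ A B * ((psi s + psi t) / 2) ≤ pairY ρ s t) ∧
      k + p * A + q * B + bet ρ A B * ((psi (A + B) + psi (A - B)) / 2) = pairY ρ (A + B) (A - B) := by
  obtain ⟨hβ, hβ1, hom⟩ := bet_facts hρ0 hρ1 hA hB0 hB hAB
  set β := bet ρ A B with hβdef
  set b := (1 - A) / 2 with hb
  have hA1 : A < 1 := by linarith
  have hb0 : 0 < b := by rw [hb]; linarith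
  have hb1 : b ≤ 1 / 2 := by rw [hb]; linarith
  have hP : 0 < 1 + A := by linarith
  have hQ : 0 < 1 - A := by linarith
  set qs := B / (1 + A) with hqs
  have hqs0 : 0 < qs := by positivity
  have hqs1 : qs < 1 := by
    rw [hqs, div_lt_one hP]
    linarith
  have hBq : B = (1 + A) * qs := by
    rw [hqs]; field_simp
  have hent : psi A = (1 + A) / 2 * (-Real.log (1 - b)) + b * (-Real.log b) := by
    rw [← binEntropy_eq_psi A, Real.binEntropy_eq_negMulLog_add_negMulLog_one_sub]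
    have e : 1 - (1 - A) / 2 = (1 + A) / 2 := by ring
    rw [← hb, e]
    simp only [Real.negMulLog]
    ring
  have e1b : 1 - b = (1 + A) / 2 := by rw [hb]; ring
  rcases hAB.eq_or_lt with hedge | hint
  · -- the edge `A + B = 1`
    have hBA : B = 1 - A := by linarith
    have hrel : qs * (1 - b) = 1 * b := by
      rw [hqs, e1b, hb, hBA]
      field_simp
    have hid := pair_id (ρ := ρ) (β := β) (c := A) (d := B) (by linarith) hA1
    have e2 : B / (1 - A) = 1 := by
      rw [hBA]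
      exact div_self hQ.ne'
    rw [← hqs, e2] at hid
    have e3 : om ρ β qs = qs * kap1 ρ β qs - kap ρ β qs := rfl
    refine ⟨0, 0, (kap1 ρ β qs + kap ρ β 1 + (1 - β) * (-Real.log b)) / 2, ?_, ?_⟩
    · intro s t hs ht hs1
      have hs1' := hs1 hedge
      subst hs1'
      have ht' := abs_le.mp ht
      set c := (1 + t) / 2 with hc
      set d := (1 - t) / 2 with hd
      have es : (1 : ℝ) = c + d := by rw [hc, hd]; ring
      have et : t = c - d := by rw [hc, hd]; ring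
      rcases eq_or_lt_of_le ht'.2 with ht1 | ht1
      · subst ht1
        have e4 : pairY ρ 1 1 = 0 := by
          unfold pairY
          have e5 : ((1 : ℝ) + 1) / 2 + ρ * ((1 - 1) / 2) = 1 := by ring
          have e6 : ((1 : ℝ) + 1) / 2 - ρ * ((1 - 1) / 2) = 1 := by ring
          rw [e5, e6, psi_one]
          ring
        rw [e4, psi_one, hd]
        norm_num
      · have hc1 : c < 1 := by rw [hc]; linarith
        have hc0 : 0 ≤ c := by rw [hc]; linarith [ht'.1]
        have hmain := main_edge (ρ := ρ) (β := β) (b := b) (qs := qs) (c := c) (d := d) hρ0 hρ1 hβ hβ1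
          hb0 hb1 hqs0 hqs1 hrel hom hc0 hc1 (by rw [hc, hd]; ring)
        rw [← es, ← et] at hmain
        simp only [zero_mul, mul_zero, zero_add, add_zero]
        exact hmain
    · have : pairY ρ (A + B) (A - B) = β * ((psi (A + B) + psi (A - B)) / 2)
          + ((1 - β) * psi A + (1 + A) / 2 * kap ρ β qs + (1 - A) / 2 * kap ρ β 1) := by
        linarith
      rw [this, hent]
      have e5 : (1 - A) / 2 = b := rfl
      rw [e5]
      have hB2 : B = 2 * b := by rw [hb]; linarith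
      have e6 : (1 + A) / 2 * kap ρ β qs
          = (1 + A) / 2 * (qs * kap1 ρ β qs) - (1 + A) / 2 * ((1 - β) * (-Real.log (1 - b))) := by
        rw [← hom, e3]
        ring
      have e7 : (1 + A) / 2 * qs = b := by
        have : (1 + A) * qs = 2 * b := by rw [← hBq]; exact hB2
        linarith
      have e8 : (1 + A) / 2 * (qs * kap1 ρ β qs) = b * kap1 ρ β qs := by
        rw [← mul_assoc, e7]
      rw [e6, e8]
      simp only [zero_mul, mul_zero, zero_add, add_zero]
      rw [e1b]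
      have e9 : (kap1 ρ β qs + kap ρ β 1 + (1 - β) * (-Real.log b)) / 2 * B
          = b * kap1 ρ β qs + b * kap ρ β 1 + b * ((1 - β) * (-Real.log b)) := by
        rw [hB2]
        ring
      rw [e9]
      ring
  · -- the interior case
    set rs := B / (1 - A) with hrs
    have hrs1 : rs < 1 := by
      rw [hrs, div_lt_one hQ]
      linarith
    have hBr : B = (1 - A) * rs := by
      rw [hrs]; field_simp
    have hqr : qs ≤ rs := by
      rw [hqs, hrs]
      exact div_le_div_of_nonneg_left hB0.le hQ (by linarith)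
    have hrs0 : 0 < rs := by linarith
    have hrel : qs * (1 - b) = rs * b := by
      rw [e1b, hb]
      linear_combination (1 / 2) * hBq.symm.trans hBr
    set α := (kap1 ρ β qs + kap1 ρ β rs) / 2 with hα
    set γ := (om ρ β rs - (1 - β) * (-Real.log b)) / 2 with hγ
    have hα0 : 0 ≤ α := by
      have h1 := kap1_nonneg hρ0 hρ1 hβ hqs0.le hqs1
      have h2 := kap1_nonneg hρ0 hρ1 hβ hrs0.le hrs1
      rw [hα]
      linarith
    have hγ0 : 0 ≤ γ := by
      have hk2 := K2 (β := β) hρ0 hρ1 hβ hqs0 hqr hrs1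
      have hk5 := K5 hb0 hb1
      have hy : 0 ≤ 1 - β := by linarith
      rw [hom] at hk2
      rw [div_le_div_iff₀ (by positivity) (by positivity)] at hk2
      -- `rs = qs (1-b)/b`
      have hrsq : rs * b = qs * (1 - b) := hrel.symm
      have h1 : (1 - β) * (-Real.log b) ≤ om ρ β rs := by
        have h2 : (1 - β) * (-Real.log (1 - b)) * (rs * b) ^ 2 ≤ om ρ β rs * (qs * b) ^ 2 := by
          have : (1 - β) * (-Real.log (1 - b)) * (rs * b) ^ 2
              = ((1 - β) * (-Real.log (1 - b)) * rs ^ 2) * b ^ 2 := by ring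
          rw [this]
          have h3 := mul_le_mul_of_nonneg_right hk2 (sq_nonneg b)
          calc _ ≤ om ρ β rs * qs ^ 2 * b ^ 2 := h3
            _ = _ := by ring
        rw [hrsq] at h2
        have h4 : (1 - β) * (-Real.log b) * b ^ 2 ≤ (1 - β) * ((1 - b) ^ 2 * (-Real.log (1 - b))) := by
          have := mul_le_mul_of_nonneg_left hk5 hy
          calc _ = (1 - β) * (b ^ 2 * (-Real.log b)) := by ring
            _ ≤ _ := this
        have h5 : 0 < qs ^ 2 * b ^ 2 := by positivity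
        have h6 : (1 - β) * (-Real.log b) * (qs ^ 2 * b ^ 2) ≤ om ρ β rs * (qs ^ 2 * b ^ 2) := by
          have h7 := mul_le_mul_of_nonneg_left h4 (sq_nonneg qs)
          calc _ = qs ^ 2 * ((1 - β) * (-Real.log b) * b ^ 2) := by ring
            _ ≤ qs ^ 2 * ((1 - β) * ((1 - b) ^ 2 * (-Real.log (1 - b)))) := h7
            _ = (1 - β) * (-Real.log (1 - b)) * (qs * (1 - b)) ^ 2 := by ring
            _ ≤ om ρ β rs * (qs * b) ^ 2 := h2
            _ = _ := by ring
        exact le_of_mul_le_mul_right h6 h5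
      rw [hγ]
      linarith
    refine ⟨-γ, γ, α, ?_, ?_⟩
    · intro s t hs ht _
      have hQuad : ∀ c d : ℝ, 0 ≤ c → 0 ≤ d → c + d ≤ 1 →
          α * d - γ * (1 - c) + β * ((psi (c + d) + psi (c - d)) / 2) ≤ pairY ρ (c + d) (c - d) := by
        intro c d hc0 hd0 hcd
        rcases hcd.eq_or_lt with hc1 | hc1
        · rcases eq_or_lt_of_le (show c ≤ 1 by linarith) with hc2 | hc2
          · have hd1 : d = 0 := by linarith
            rw [hc2, hd1]
            have e4 : pairY ρ (1 + 0) (1 - 0) = 0 := by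
              unfold pairY
              have e5 : ((1 : ℝ) + 0 + (1 - 0)) / 2 + ρ * ((1 + 0 - (1 - 0)) / 2) = 1 := by ring
              have e6 : ((1 : ℝ) + 0 + (1 - 0)) / 2 - ρ * ((1 + 0 - (1 - 0)) / 2) = 1 := by ring
              rw [e5, e6, psi_one]
              ring
            rw [e4]
            have e7 : (1 : ℝ) + 0 = 1 := by ring
            have e8 : (1 : ℝ) - 0 = 1 := by ring
            rw [e7, e8, psi_one]
            ring_nf
            exact le_refl _
          · exact main_interior hρ0 hρ1 hβ hβ1 hb0 hb1 hqs0 hqr hrs1 hrel hom hc0 hc2 hd0 (by linarith)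
        · exact main_interior hρ0 hρ1 hβ hβ1 hb0 hb1 hqs0 hqr hrs1 hrel hom hc0
            (by linarith) hd0 (by linarith)
      have := square_of_quadrant hα0 hγ0 hQuad hs ht
      linarith
    · have hid := pair_id (ρ := ρ) (β := β) (c := A) (d := B) (by linarith) hA1
      rw [← hqs, ← hrs] at hid
      have : pairY ρ (A + B) (A - B) = β * ((psi (A + B) + psi (A - B)) / 2)
          + ((1 - β) * psi A + (1 + A) / 2 * kap ρ β qs + (1 - A) / 2 * kap ρ β rs) := by
        linarith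
      rw [this, hent]
      have e5 : (1 - A) / 2 = b := rfl
      rw [e5]
      have e3 : om ρ β qs = qs * kap1 ρ β qs - kap ρ β qs := rfl
      have e3' : om ρ β rs = rs * kap1 ρ β rs - kap ρ β rs := rfl
      have hB2 : B = 2 * b * rs := by rw [hBr, hb]; ring
      have hB3 : B = 2 * ((1 + A) / 2) * qs := by rw [hBq]; ring
      have e6 : (1 + A) / 2 * kap ρ β qs
          = (1 + A) / 2 * (qs * kap1 ρ β qs) - (1 + A) / 2 * ((1 - β) * (-Real.log (1 - b))) := by
        rw [← hom, e3]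
        ring
      have e7 : b * kap ρ β rs = b * (rs * kap1 ρ β rs) - b * om ρ β rs := by
        rw [e3']
        ring
      have e8 : α * B = (1 + A) / 2 * (qs * kap1 ρ β qs) + b * (rs * kap1 ρ β rs) := by
        have h1 : α * B = kap1 ρ β qs / 2 * B + kap1 ρ β rs / 2 * B := by
          rw [hα]
          ring
        rw [h1]
        nth_rewrite 1 [hB3]
        rw [hB2]
        ring
      have e10 : 1 - A = 2 * b := by rw [hb]; ring
      have e9 : γ * A = γ - γ * (2 * b) := by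
        rw [← e10]
        ring
      rw [e6, e7]
      have e11 : -γ + γ * A = -(b * (om ρ β rs - (1 - β) * (-Real.log b))) := by
        rw [e9, hγ]
        ring
      rw [e11, e8]
      ring

/-- The value of `pairY` at the touching point. -/
lemma pairY_touch (ρ A B : ℝ) :
    pairY ρ (A + B) (A - B) = (psi (A + ρ * B) + psi (A - ρ * B)) / 2 := by
  unfold pairY
  have e1 : (A + B + (A - B)) / 2 = A := by ring
  have e2 : (A + B - (A - B)) / 2 = B := by ring
  rw [e1, e2]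

/-- The trivial certificate at `B = 0`. -/
lemma half_sum_le_pairY {ρ s t : ℝ} (hρ0 : 0 ≤ ρ) (hρ1 : ρ ≤ 1) (hs : |s| ≤ 1) (ht : |t| ≤ 1) :
    (psi s + psi t) / 2 ≤ pairY ρ s t := by
  have h := Vale.Agent.P322W.chord hρ0 hρ1 hs ht
  have hs' := abs_le.mp hs
  have ht' := abs_le.mp ht
  have hc := concaveOn_psi.2 (x := s) (y := t) ⟨hs'.1, hs'.2⟩ ⟨ht'.1, ht'.2⟩
    (show (0 : ℝ) ≤ 1 / 2 by norm_num) (show (0 : ℝ) ≤ 1 / 2 by norm_num) (by norm_num)
  simp only [smul_eq_mul] at hc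
  have e : 1 / 2 * s + 1 / 2 * t = (s + t) / 2 := by ring
  rw [e] at hc
  have hr : 0 ≤ 1 - ρ ^ 2 := by nlinarith
  have := mul_le_mul_of_nonneg_left hc hr
  nlinarith

/-- The plane step at `B = 0` holds for any `U`. -/
lemma planeStep_zero {ρ : ℝ} (hρ0 : 0 ≤ ρ) (hρ1 : ρ ≤ 1) (U : ℝ → ℝ) (A : ℝ) :
    Vale.Agent.P322W.PlaneStep ρ U A 0 := by
  refine ⟨0, 0, 0, 1, by norm_num, ?_, ?_⟩
  · intro s t hs ht _
    have := half_sum_le_pairY hρ0 hρ1 hs ht
    linarith
  · simp

/-- The plane step from the scalar inequality at the touching point. -/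
theorem planeStep_of_touch {ρ A B : ℝ} (U : ℝ → ℝ) (hρ0 : 0 ≤ ρ) (hρ1 : ρ ≤ 1) (hA : 0 ≤ A) (hB0 : 0 < B)
    (hB : B ≤ 1 / 2) (hAB : A + B ≤ 1)
    (hS : U A ≤ (psi (A + ρ * B) + psi (A - ρ * B)) / 2
      - bet ρ A B * ((psi (A + B) + psi (A - B)) / 2 - (U (A + B) + U (A - B)) / 2)) :
    Vale.Agent.P322W.PlaneStep ρ U A B := by
  obtain ⟨k, p, q, h1, h2⟩ := plane_cert hρ0 hρ1 hA hB0 hB hAB
  obtain ⟨hβ, _, _⟩ := bet_facts hρ0 hρ1 hA hB0 hB hAB
  refine ⟨k, p, q, bet ρ A B, le_trans (sq_nonneg ρ) hβ, h1, ?_⟩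
  rw [pairY_touch] at h2
  rw [← h2] at hS
  linarith

/-- Comparison with the product of the chord and the rate at `ρ = 0`. -/
lemma bet_le {ρ A B : ℝ} (hρ0 : 0 ≤ ρ) (hρ1 : ρ ≤ 1) (hA : 0 ≤ A) (hB0 : 0 < B) (hB : B ≤ 1 / 2)
    (hAB : A + B ≤ 1) :
    bet ρ A B ≤ ρ ^ 2 + (1 - ρ ^ 2) * bet 0 A B := by
  set T := 1 + A with hT
  have hT1 : 1 ≤ T := by rw [hT]; linarith
  have hT2 : T + B ≤ 2 := by rw [hT]; linarith
  set S1 := T ^ 2 - B ^ 2 with hS1
  have hρ2 : ρ ^ 2 ≤ 1 := by nlinarith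
  have hS1p : 3 / 4 ≤ S1 := by rw [hS1]; nlinarith
  have hS1u : S1 ≤ 4 * (1 - B) := by rw [hS1]; nlinarith
  have hS1pos : 0 < S1 := by linarith
  have hLL1 : 0 < Real.log (4 / S1) := by
    apply Real.log_pos
    rw [one_lt_div hS1pos]
    linarith
  have e1 : bet ρ A B = Real.log (4 / (T ^ 2 - (ρ * B) ^ 2)) / Real.log (4 / S1) := rfl
  have e0 : bet 0 A B = Real.log (4 / T ^ 2) / Real.log (4 / S1) := by
    have : bet 0 A B = Real.log (4 / (T ^ 2 - (0 * B) ^ 2)) / Real.log (4 / S1) := rfl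
    rw [this]
    simp
  rw [e1, e0]
  -- convexity of `r ↦ -log (T²-r B²)`
  have hconv : Real.log (4 / (T ^ 2 - (ρ * B) ^ 2))
      ≤ ρ ^ 2 * Real.log (4 / S1) + (1 - ρ ^ 2) * Real.log (4 / T ^ 2) := by
    have hTp : 0 < T ^ 2 := by positivity
    have e2 : T ^ 2 - (ρ * B) ^ 2 = ρ ^ 2 * S1 + (1 - ρ ^ 2) * T ^ 2 := by
      rw [hS1]; ring
    have hcon := strictConcaveOn_log_Ioi.concaveOn.2 (x := S1) (y := T ^ 2) hS1pos hTp
      (sq_nonneg ρ) (show 0 ≤ 1 - ρ ^ 2 by linarith) (by ring)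
    simp only [smul_eq_mul] at hcon
    rw [← e2] at hcon
    have hSr : 0 < T ^ 2 - (ρ * B) ^ 2 := by
      rw [e2]
      nlinarith [sq_nonneg ρ]
    rw [Real.log_div (by norm_num) hSr.ne', Real.log_div (by norm_num) hS1pos.ne',
      Real.log_div (by norm_num) hTp.ne']
    nlinarith
  have e3 : ρ ^ 2 + (1 - ρ ^ 2) * (Real.log (4 / T ^ 2) / Real.log (4 / S1))
      = (ρ ^ 2 * Real.log (4 / S1) + (1 - ρ ^ 2) * Real.log (4 / T ^ 2)) / Real.log (4 / S1) := by
    field_simp
  rw [e3]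
  exact div_le_div_of_nonneg_right hconv hLL1.le

end Vale.Agent.P322X
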