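import Vale.Agent.P322X.Three

/-! Two scalar inequalities for the binary divergence. -/

namespace Vale.Agent.P322X

open Set Real

/-- The divergence inequality `K4`, with `a = 1 - b`, `P = 1 - t`. -/
lemma K4 {b t : ℝ} (hb0 : 0 < b) (hb : b ≤ 1 / 2) (ht0 : 0 ≤ t) (ht : t ≤ 1 / 2) :
    b ^ 2 * ((1 - t) * (-Real.log (1 - b)) + t * (-Real.log b) - Real.binEntropy t)
      ≤ (t - b) ^ 2 * (-Real.log (1 - b)) := by
  set L := -Real.log (1 - b) with hL
  set Lq := -Real.log b with hLq
  have hb1 : 0 < 1 - b := by linarith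
  -- the function
  let F : ℝ → ℝ := fun x => (x - b) ^ 2 * L - b ^ 2 * ((1 - x) * L + x * Lq - Real.binEntropy x)
  let F1 : ℝ → ℝ := fun x => 2 * (x - b) * L - b ^ 2 * (Lq - L - (Real.log (1 - x) - Real.log x))
  let F2 : ℝ → ℝ := fun x => 2 * L - b ^ 2 * (1 / (1 - x) + 1 / x)
  have hF : ∀ x, 0 < x → x < 1 → HasDerivAt F (F1 x) x := by
    intro x hx0 hx1
    have h1 : HasDerivAt (fun x : ℝ => (x - b) ^ 2 * L) (2 * (x - b) * L) x := by
      have := (((hasDerivAt_id x).sub_const b).pow 2).mul_const L
      simpa using this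
    have h2 : HasDerivAt (fun x : ℝ => (1 - x) * L + x * Lq) (Lq - L) x := by
      have a1 : HasDerivAt (fun x : ℝ => (1 - x) * L) ((-1) * L) x :=
        ((hasDerivAt_id x).const_sub 1).mul_const L
      have a2 : HasDerivAt (fun x : ℝ => x * Lq) (1 * Lq) x := (hasDerivAt_id x).mul_const Lq
      have := a1.add a2
      exact this.congr_deriv (by ring)
    have h3 := Real.hasDerivAt_binEntropy hx0.ne' hx1.ne
    have := h1.sub ((h2.sub h3).const_mul (b ^ 2))
    exact this
  have hF1 : ∀ x, 0 < x → x < 1 → HasDerivAt F1 (F2 x) x := by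
    intro x hx0 hx1
    have h1 : HasDerivAt (fun x : ℝ => 2 * (x - b) * L) (2 * L) x := by
      have := (((hasDerivAt_id x).sub_const b).const_mul (2 : ℝ)).mul_const L
      simpa using this
    have hs : HasDerivAt (fun x : ℝ => 1 - x) (-1) x := by
      simpa using (hasDerivAt_id x).const_sub 1
    have h2 : HasDerivAt (fun x : ℝ => Real.log (1 - x)) ((-1) / (1 - x)) x :=
      hs.log (by linarith)
    have h3 : HasDerivAt (fun x : ℝ => Real.log x) (1 / x) x := by
      simpa using Real.hasDerivAt_log hx0.ne'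
    have h4 := h1.sub (((hasDerivAt_const x (Lq - L)).sub (h2.sub h3)).const_mul (b ^ 2))
    refine h4.congr_deriv ?_
    simp only [F2]
    have : (1 - x) ≠ 0 := by linarith
    field_simp
    ring
  have hcont : Continuous F := by
    have := Real.binEntropy_continuous
    fun_prop
  have hbb : F b = 0 := by
    have e : Real.binEntropy b = (1 - b) * L + b * Lq := by
      rw [hL, hLq, Real.binEntropy_eq_negMulLog_add_negMulLog_one_sub]
      simp only [Real.negMulLog]
      ring
    simp only [F]
    rw [e]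
    ring
  have hb10 : F1 b = 0 := by
    simp only [F1]
    rw [hL, hLq]
    ring
  have hF0 : F 0 = 0 := by
    simp only [F]
    rw [Real.binEntropy_zero]
    ring
  have hbt : b < 1 := by linarith
  -- left part
  have hleft : ∀ x ∈ Icc 0 b, 0 ≤ F x := by
    have hm : MonotoneOn F2 (Ioc 0 b) := by
      intro x hx y hy hxy
      simp only [F2]
      have hy1 : y < 1 := by linarith [hy.2]
      have hx1 : x < 1 := by linarith [hx.2]
      have e1 : 1 / (1 - y) + 1 / y ≤ 1 / (1 - x) + 1 / x := by
        have e1 : 1 / (1 - y) + 1 / y = 1 / (y * (1 - y)) := by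
          have : 1 - y ≠ 0 := by linarith
          have : y ≠ 0 := hy.1.ne'
          field_simp
          ring
        have e2 : 1 / (1 - x) + 1 / x = 1 / (x * (1 - x)) := by
          have : 1 - x ≠ 0 := by linarith
          have : x ≠ 0 := hx.1.ne'
          field_simp
          ring
        rw [e1, e2]
        apply one_div_le_one_div_of_le (mul_pos hx.1 (by linarith))
        nlinarith [hx.1, hy.1, hx.2, hy.2]
      have : 0 ≤ b ^ 2 := by positivity
      nlinarith
    obtain ⟨_, _, _, h⟩ := three_left hb0 hcont.continuousOn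
      (fun x hx => hF x hx.1 (by linarith [hx.2])) (fun x hx => hF1 x hx.1 (by linarith [hx.2]))
      hm hF0 hbb hb10
    exact h
  -- right part
  have hright : ∀ x ∈ Icc b (1 / 2), 0 ≤ F x := by
    have hLb : b ≤ L := by
      have := Real.log_le_sub_one_of_pos hb1
      rw [hL]
      linarith
    have hF2 : ∀ x ∈ Icc b (1 / 2), 0 ≤ F2 x := by
      intro x hx
      simp only [F2]
      have hx0 : 0 < x := by linarith [hx.1]
      have hx1 : 0 < 1 - x := by linarith [hx.2]
      have e2 : 1 / (1 - x) + 1 / x = 1 / (x * (1 - x)) := by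
        have : x ≠ 0 := hx0.ne'
        field_simp
        ring
      rw [e2]
      have hprod : b * (1 - b) ≤ x * (1 - x) := by nlinarith [hx.1, hx.2]
      have h1 : 1 / (x * (1 - x)) ≤ 1 / (b * (1 - b)) :=
        one_div_le_one_div_of_le (mul_pos hb0 hb1) hprod
      have h2 : b ^ 2 * (1 / (b * (1 - b))) ≤ 2 * b := by
        have : b ^ 2 * (1 / (b * (1 - b))) = b / (1 - b) := by
          field_simp
        rw [this, div_le_iff₀ hb1]
        nlinarith
      have h3 : b ^ 2 * (1 / (x * (1 - x))) ≤ b ^ 2 * (1 / (b * (1 - b))) :=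
        mul_le_mul_of_nonneg_left h1 (by positivity)
      linarith
    have hF1mono : MonotoneOn F1 (Icc b (1 / 2)) := by
      apply monotoneOn_of_deriv_nonneg (convex_Icc _ _)
      · exact fun x hx => (hF1 x (by linarith [hx.1]) (by linarith [hx.2])).continuousAt.continuousWithinAt
      · rw [interior_Icc]
        exact fun x hx =>
          (hF1 x (by linarith [hx.1]) (by linarith [hx.2])).differentiableAt.differentiableWithinAt
      · rw [interior_Icc]
        intro x hx
        rw [(hF1 x (by linarith [hx.1]) (by linarith [hx.2])).deriv]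
        exact hF2 x ⟨hx.1.le, hx.2.le⟩
    have hFmono : MonotoneOn F (Icc b (1 / 2)) := by
      apply monotoneOn_of_deriv_nonneg (convex_Icc _ _) hcont.continuousOn
      · rw [interior_Icc]
        exact fun x hx =>
          (hF x (by linarith [hx.1]) (by linarith [hx.2])).differentiableAt.differentiableWithinAt
      · rw [interior_Icc]
        intro x hx
        rw [(hF x (by linarith [hx.1]) (by linarith [hx.2])).deriv]
        have := hF1mono (left_mem_Icc.2 hb) ⟨hx.1.le, hx.2.le⟩ hx.1.le
        rwa [hb10] at this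
    intro x hx
    have := hFmono (left_mem_Icc.2 hb) hx hx.1
    rwa [hbb] at this
  have h : 0 ≤ F t := by
    rcases le_total t b with hle | hle
    · exact hleft t ⟨ht0, hle⟩
    · exact hright t ⟨hle, ht⟩
  simp only [F] at h
  linarith

/-- The scalar inequality `K5`. -/
lemma K5 {b : ℝ} (hb0 : 0 < b) (hb : b ≤ 1 / 2) :
    b ^ 2 * (-Real.log b) ≤ (1 - b) ^ 2 * (-Real.log (1 - b)) := by
  -- `W x = x ^ 2 log x - (1-x)^2 log (1-x)`, concave on `[0,1/2]`, zero at the ends
  let W : ℝ → ℝ := fun x => x * (-Real.negMulLog x) - (1 - x) * (-Real.negMulLog (1 - x))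
  let W1 : ℝ → ℝ := fun x => 1 - 2 * Real.binEntropy x
  have hWeq : ∀ x, 0 < x → x < 1 → W x = x ^ 2 * Real.log x - (1 - x) ^ 2 * Real.log (1 - x) := by
    intro x _ _
    simp only [W, Real.negMulLog]
    ring
  have hW : ∀ x, 0 < x → x < 1 → HasDerivAt W (W1 x) x := by
    intro x hx0 hx1
    have hx1' : 1 - x ≠ 0 := by linarith
    have h1 : HasDerivAt (fun x : ℝ => x ^ 2 * Real.log x) (2 * x * Real.log x + x) x := by
      have a0 : HasDerivAt (fun x : ℝ => x ^ 2) (2 * x) x := by
        simpa using hasDerivAt_pow 2 x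
      have a := a0.fun_mul (Real.hasDerivAt_log hx0.ne')
      refine a.congr_deriv ?_
      field_simp
    have h2 : HasDerivAt (fun x : ℝ => (1 - x) ^ 2 * Real.log (1 - x))
        (-(2 * (1 - x) * Real.log (1 - x) + (1 - x))) x := by
      have hs : HasDerivAt (fun x : ℝ => 1 - x) (-1) x := by
        simpa using (hasDerivAt_id x).const_sub 1
      have a0 : HasDerivAt (fun x : ℝ => (1 - x) ^ 2) (2 * (1 - x) * (-1)) x := by
        have := hs.fun_pow 2
        simpa using this
      have a := a0.fun_mul (hs.log hx1')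
      refine a.congr_deriv ?_
      field_simp
      ring
    have h3 := h1.sub h2
    have hev : (fun x : ℝ => x ^ 2 * Real.log x - (1 - x) ^ 2 * Real.log (1 - x)) =ᶠ[nhds x] W := by
      filter_upwards [Ioo_mem_nhds hx0 hx1] with z hz
      exact (hWeq z hz.1 hz.2).symm
    refine (h3.congr_of_eventuallyEq hev.symm).congr_deriv ?_
    simp only [W1]
    rw [Real.binEntropy_eq_negMulLog_add_negMulLog_one_sub]
    simp only [Real.negMulLog]
    ring
  have hcont : Continuous W := by
    have := Real.continuous_negMulLog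
    fun_prop
  have hconc : ConcaveOn ℝ (Icc 0 (1 / 2)) W := by
    apply AntitoneOn.concaveOn_of_deriv (convex_Icc _ _) hcont.continuousOn
    · rw [interior_Icc]
      exact fun x hx =>
        (hW x hx.1 (by linarith [hx.2])).differentiableAt.differentiableWithinAt
    · rw [interior_Icc]
      intro x hx y hy hxy
      rw [(hW x hx.1 (by linarith [hx.2])).deriv, (hW y hy.1 (by linarith [hy.2])).deriv]
      simp only [W1]
      have := Real.binEntropy_strictMonoOn.monotoneOn
        (a := x) (b := y) ⟨hx.1.le, by rw [← one_div]; exact hx.2.le⟩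
        ⟨hy.1.le, by rw [← one_div]; exact hy.2.le⟩ hxy
      linarith
  have hW0 : W 0 = 0 := by simp [W]
  have hWh : W (1 / 2) = 0 := by
    simp only [W]
    norm_num
  have hb' : b ∈ Icc (0 : ℝ) (1 / 2) := ⟨hb0.le, hb⟩
  -- concavity between the endpoints
  have h := hconc.2 (left_mem_Icc.2 (by norm_num : (0 : ℝ) ≤ 1 / 2))
    (right_mem_Icc.2 (by norm_num : (0 : ℝ) ≤ 1 / 2))
    (show (0 : ℝ) ≤ 1 - 2 * b by linarith) (show (0 : ℝ) ≤ 2 * b by linarith) (by ring)
  simp only [smul_eq_mul] at h
  rw [hW0, hWh] at h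
  have e : (1 - 2 * b) * 0 + 2 * b * (1 / 2) = b := by ring
  rw [e] at h
  simp only [mul_zero, add_zero] at h
  rw [hWeq b hb0 (by linarith)] at h
  nlinarith

end Vale.Agent.P322X
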