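import Vale.Agent.P322X.Ent
import Vale.Agent.P322W.Chord

/-! The function `kap x = β D(x) - D(ρ x)`, with `D = log 2 - ψ`: closed form of the
Legendre defect `om`, and the Bregman lower bound. -/

namespace Vale.Agent.P322X

open Set Real
open Vale.Agent.P322V

/-- `D x = log 2 - ψ x`. -/
noncomputable def dl (x : ℝ) : ℝ := Real.log 2 - psi x

noncomputable def kap (ρ β x : ℝ) : ℝ := β * dl x - dl (ρ * x)

noncomputable def kap1 (ρ β x : ℝ) : ℝ := β * ath x - ρ * ath (ρ * x)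

noncomputable def kap2 (ρ β x : ℝ) : ℝ := β * (1 / (1 - x ^ 2)) - ρ * (ρ * (1 / (1 - (ρ * x) ^ 2)))

noncomputable def om (ρ β x : ℝ) : ℝ := x * kap1 ρ β x - kap ρ β x

lemma dl_zero : dl 0 = 0 := by
  unfold dl
  rw [psi_zero]
  ring

lemma continuous_dl : Continuous dl := by
  unfold dl
  have := continuous_psi
  fun_prop

lemma continuous_kap (ρ β : ℝ) : Continuous (kap ρ β) := by
  unfold kap
  have := continuous_dl
  fun_prop

lemma kap_zero (ρ β : ℝ) : kap ρ β 0 = 0 := by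
  unfold kap
  rw [mul_zero, dl_zero]
  ring

lemma abs_mul_lt {ρ x : ℝ} (hρ0 : 0 ≤ ρ) (hρ1 : ρ ≤ 1) (hx : |x| < 1) : |ρ * x| < 1 := by
  rw [abs_mul, abs_of_nonneg hρ0]
  nlinarith [abs_nonneg x]

lemma hasDerivAt_dl {x : ℝ} (hx : |x| < 1) : HasDerivAt dl (ath x) x := by
  have h := (hasDerivAt_const x (Real.log 2)).sub (hasDerivAt_psi hx)
  exact h.congr_deriv (by ring)

lemma hasDerivAt_kap {ρ β x : ℝ} (hρ0 : 0 ≤ ρ) (hρ1 : ρ ≤ 1) (hx : |x| < 1) :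
    HasDerivAt (kap ρ β) (kap1 ρ β x) x := by
  have hm : HasDerivAt (fun x => ρ * x) ρ x := by
    simpa using (hasDerivAt_id x).const_mul ρ
  have h1 := (hasDerivAt_dl hx).const_mul β
  have h2 : HasDerivAt (fun x => dl (ρ * x)) (ath (ρ * x) * ρ) x :=
    (hasDerivAt_dl (abs_mul_lt hρ0 hρ1 hx)).comp x hm
  have h3 := h1.sub h2
  refine h3.congr_deriv ?_
  unfold kap1
  ring

lemma hasDerivAt_kap1 {ρ β x : ℝ} (hρ0 : 0 ≤ ρ) (hρ1 : ρ ≤ 1) (hx : |x| < 1) :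
    HasDerivAt (kap1 ρ β) (kap2 ρ β x) x := by
  have hm : HasDerivAt (fun x => ρ * x) ρ x := by
    simpa using (hasDerivAt_id x).const_mul ρ
  have h1 := (hasDerivAt_ath hx).const_mul β
  have h2 : HasDerivAt (fun x => ath (ρ * x)) (1 / (1 - (ρ * x) ^ 2) * ρ) x :=
    (hasDerivAt_ath (abs_mul_lt hρ0 hρ1 hx)).comp x hm
  have h3 := h1.sub (h2.const_mul ρ)
  refine h3.congr_deriv ?_
  unfold kap2
  ring

/-- `x ath x - D x = -(1/2) log (1-x²)`. -/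
lemma mul_ath_sub_dl {x : ℝ} (hx : |x| < 1) :
    x * ath x - dl x = -(1 / 2) * Real.log (1 - x ^ 2) := by
  unfold dl
  rw [psi_eq_LL hx, LL_ath hx]
  ring

/-- Closed form of the Legendre defect. -/
lemma om_eq {ρ β x : ℝ} (hρ0 : 0 ≤ ρ) (hρ1 : ρ ≤ 1) (hx : |x| < 1) :
    om ρ β x = (1 / 2) * (Real.log (1 - (ρ * x) ^ 2) - β * Real.log (1 - x ^ 2)) := by
  unfold om kap1 kap
  have h1 := mul_ath_sub_dl hx
  have h2 := mul_ath_sub_dl (abs_mul_lt hρ0 hρ1 hx)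
  linear_combination β * h1 - h2

lemma om_zero (ρ β : ℝ) : om ρ β 0 = 0 := by
  unfold om
  rw [kap_zero]
  ring

lemma hasDerivAt_om {ρ β x : ℝ} (hρ0 : 0 ≤ ρ) (hρ1 : ρ ≤ 1) (hx : |x| < 1) :
    HasDerivAt (om ρ β) (x * kap2 ρ β x) x := by
  have h1 := ((hasDerivAt_id x).fun_mul (hasDerivAt_kap1 (β := β) hρ0 hρ1 hx)).sub
    (hasDerivAt_kap (β := β) hρ0 hρ1 hx)
  refine h1.congr_deriv ?_
  simp only [id]
  ring

lemma sq_lt_one_of_abs {x : ℝ} (hx : |x| < 1) : 0 < 1 - x ^ 2 := by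
  have := sq_abs x
  nlinarith [abs_nonneg x]

/-- Monotonicity of `kap2` on `[0,1)`. -/
lemma kap2_mono {ρ β x y : ℝ} (hρ0 : 0 ≤ ρ) (hρ1 : ρ ≤ 1) (hβ : ρ ^ 2 ≤ β) (hx0 : 0 ≤ x)
    (hxy : x ≤ y) (hy1 : y < 1) : kap2 ρ β x ≤ kap2 ρ β y := by
  unfold kap2
  have hx1 : x < 1 := by linarith
  have hy0 : 0 ≤ y := by linarith
  have hX : 0 < 1 - x ^ 2 := by nlinarith
  have hY : 0 < 1 - y ^ 2 := by nlinarith
  have hρ2 : ρ ^ 2 ≤ 1 := by nlinarith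
  have hX' : 0 < 1 - (ρ * x) ^ 2 := by
    have : (ρ * x) ^ 2 = ρ ^ 2 * x ^ 2 := by ring
    rw [this]
    nlinarith [sq_nonneg x]
  have hY' : 0 < 1 - (ρ * y) ^ 2 := by
    have : (ρ * y) ^ 2 = ρ ^ 2 * y ^ 2 := by ring
    rw [this]
    nlinarith [sq_nonneg y]
  have hβ0 : 0 ≤ β := le_trans (sq_nonneg ρ) hβ
  have hw : 0 ≤ y ^ 2 - x ^ 2 := by nlinarith
  have e1 : 1 / (1 - y ^ 2) - 1 / (1 - x ^ 2) = (y ^ 2 - x ^ 2) / ((1 - y ^ 2) * (1 - x ^ 2)) := by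
    field_simp
    ring
  have e2 : ρ * (ρ * (1 / (1 - (ρ * y) ^ 2))) - ρ * (ρ * (1 / (1 - (ρ * x) ^ 2)))
      = ρ ^ 4 * (y ^ 2 - x ^ 2) / ((1 - (ρ * y) ^ 2) * (1 - (ρ * x) ^ 2)) := by
    have key : ∀ U V : ℝ, U ≠ 0 → V ≠ 0 →
        ρ * (ρ * (1 / U)) - ρ * (ρ * (1 / V)) = ρ ^ 2 * (V - U) / (U * V) := by
      intro U V hU hV
      field_simp
    rw [key _ _ hY'.ne' hX'.ne']
    congr 1
    ring
  have hden : (1 - y ^ 2) * (1 - x ^ 2) ≤ (1 - (ρ * y) ^ 2) * (1 - (ρ * x) ^ 2) := by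
    apply mul_le_mul
    · have : (ρ * y) ^ 2 = ρ ^ 2 * y ^ 2 := by ring
      rw [this]
      nlinarith [sq_nonneg y]
    · have : (ρ * x) ^ 2 = ρ ^ 2 * x ^ 2 := by ring
      rw [this]
      nlinarith [sq_nonneg x]
    · exact hX.le
    · exact hY'.le
  have hP : 0 < (1 - y ^ 2) * (1 - x ^ 2) := mul_pos hY hX
  have h3 : ρ ^ 4 * (y ^ 2 - x ^ 2) / ((1 - (ρ * y) ^ 2) * (1 - (ρ * x) ^ 2))
      ≤ β * ((y ^ 2 - x ^ 2) / ((1 - y ^ 2) * (1 - x ^ 2))) := by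
    have h4 : ρ ^ 4 ≤ β := by nlinarith [sq_nonneg ρ]
    calc ρ ^ 4 * (y ^ 2 - x ^ 2) / ((1 - (ρ * y) ^ 2) * (1 - (ρ * x) ^ 2))
        ≤ ρ ^ 4 * (y ^ 2 - x ^ 2) / ((1 - y ^ 2) * (1 - x ^ 2)) :=
          div_le_div_of_nonneg_left (by positivity) hP hden
      _ ≤ β * ((y ^ 2 - x ^ 2) / ((1 - y ^ 2) * (1 - x ^ 2))) := by
          rw [mul_div_assoc]
          exact mul_le_mul_of_nonneg_right h4 (by positivity)
  have h5 : β * (1 / (1 - y ^ 2)) - β * (1 / (1 - x ^ 2))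
      = β * ((y ^ 2 - x ^ 2) / ((1 - y ^ 2) * (1 - x ^ 2))) := by
    rw [← e1]
    ring
  linarith

/-- `K1`: Bregman divergence of `kap` dominates a parabola. -/
lemma K1 {ρ β xs x : ℝ} (hρ0 : 0 ≤ ρ) (hρ1 : ρ ≤ 1) (hβ : ρ ^ 2 ≤ β) (hxs0 : 0 < xs) (hxs1 : xs < 1)
    (hx0 : 0 ≤ x) (hx1 : x ≤ 1) :
    om ρ β xs / xs ^ 2 * (x - xs) ^ 2
      ≤ kap ρ β x - kap ρ β xs - kap1 ρ β xs * (x - xs) := by
  set c0 := om ρ β xs / xs ^ 2 with hc0
  let f : ℝ → ℝ := fun x => kap ρ β x - kap ρ β xs - kap1 ρ β xs * (x - xs) - c0 * (x - xs) ^ 2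
  let f1 : ℝ → ℝ := fun x => kap1 ρ β x - kap1 ρ β xs - 2 * c0 * (x - xs)
  let f2 : ℝ → ℝ := fun x => kap2 ρ β x - 2 * c0
  have habs : ∀ x ∈ Ioo (0 : ℝ) 1, |x| < 1 := fun x hx => by
    rw [abs_of_pos hx.1]; exact hx.2
  have hd : ∀ x ∈ Ioo (0 : ℝ) 1, HasDerivAt f (f1 x) x := by
    intro x hx
    have h1 := hasDerivAt_kap (β := β) hρ0 hρ1 (habs x hx)
    have h2 : HasDerivAt (fun x : ℝ => kap1 ρ β xs * (x - xs)) (kap1 ρ β xs) x := by
      have := ((hasDerivAt_id x).sub_const xs).const_mul (kap1 ρ β xs)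
      simpa using this
    have h3 : HasDerivAt (fun x : ℝ => c0 * (x - xs) ^ 2) (2 * c0 * (x - xs)) x := by
      have a0 : HasDerivAt (fun x : ℝ => x - xs) 1 x := by
        simpa using (hasDerivAt_id x).sub_const xs
      have := (a0.fun_pow 2).const_mul c0
      refine this.congr_deriv ?_
      simp
      ring
    have := ((h1.sub_const (kap ρ β xs)).sub h2).sub h3
    exact this
  have hd2 : ∀ x ∈ Ioo (0 : ℝ) 1, HasDerivAt f1 (f2 x) x := by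
    intro x hx
    have h1 := hasDerivAt_kap1 (β := β) hρ0 hρ1 (habs x hx)
    have h2 : HasDerivAt (fun x : ℝ => 2 * c0 * (x - xs)) (2 * c0) x := by
      have := ((hasDerivAt_id x).sub_const xs).const_mul (2 * c0)
      simpa using this
    exact (h1.sub_const (kap1 ρ β xs)).sub h2
  have hm : MonotoneOn f2 (Ioo (0 : ℝ) 1) := by
    intro x hx y hy hxy
    have := kap2_mono hρ0 hρ1 hβ hx.1.le hxy hy.2
    simp only [f2]
    linarith
  have hcont : Continuous f := by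
    have := continuous_kap ρ β
    fun_prop
  have hf0 : f 0 = 0 := by
    simp only [f]
    rw [kap_zero, hc0]
    have : om ρ β xs = xs * kap1 ρ β xs - kap ρ β xs := rfl
    rw [this]
    field_simp
    ring
  have hfs : f xs = 0 := by
    simp only [f]
    ring
  have hf1s : f1 xs = 0 := by
    simp only [f1]
    ring
  have h := three_point hxs0 hxs1 hcont.continuousOn hd hd2 hm hf0 hfs hf1s x ⟨hx0, hx1⟩
  simp only [f] at h
  linarith

/-- The bound `2 om x ≤ x² kap2 x`. -/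
lemma two_om_le {ρ β x : ℝ} (hρ0 : 0 ≤ ρ) (hρ1 : ρ ≤ 1) (hβ : ρ ^ 2 ≤ β) (hx0 : 0 < x) (hx1 : x < 1) :
    2 * om ρ β x ≤ x ^ 2 * kap2 ρ β x := by
  let g : ℝ → ℝ := fun u => om ρ β u - u ^ 2 * (kap2 ρ β x / 2)
  let g1 : ℝ → ℝ := fun u => u * kap2 ρ β u - 2 * u * (kap2 ρ β x / 2)
  have hgd : ∀ u ∈ Icc (0 : ℝ) x, HasDerivAt g (g1 u) u := by
    intro u hu
    have hu1 : |u| < 1 := by
      rw [abs_of_nonneg hu.1]
      linarith [hu.2]
    have a0 : HasDerivAt (fun x : ℝ => x ^ 2) (2 * u) u := by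
      simpa using hasDerivAt_pow 2 u
    exact (hasDerivAt_om (β := β) hρ0 hρ1 hu1).sub (a0.mul_const _)
  have hanti : AntitoneOn g (Icc 0 x) := by
    apply antitoneOn_of_deriv_nonpos (convex_Icc _ _)
    · exact fun u hu => (hgd u hu).continuousAt.continuousWithinAt
    · exact fun u hu => (hgd u (interior_subset hu)).differentiableAt.differentiableWithinAt
    · intro u hu
      have hu' := interior_subset hu
      rw [(hgd u hu').deriv]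
      simp only [g1]
      have := kap2_mono (β := β) hρ0 hρ1 hβ hu'.1 hu'.2 hx1
      nlinarith [hu'.1]
  have h := hanti (left_mem_Icc.2 hx0.le) (right_mem_Icc.2 hx0.le) hx0.le
  simp only [g] at h
  rw [om_zero] at h
  nlinarith

/-- `K2`: `om x / x²` is monotone. -/
lemma K2 {ρ β q r : ℝ} (hρ0 : 0 ≤ ρ) (hρ1 : ρ ≤ 1) (hβ : ρ ^ 2 ≤ β) (hq0 : 0 < q) (hqr : q ≤ r)
    (hr1 : r < 1) : om ρ β q / q ^ 2 ≤ om ρ β r / r ^ 2 := by
  have hd : ∀ x ∈ Ioo (0 : ℝ) 1, HasDerivAt (fun x => om ρ β x / x ^ 2)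
      ((x * kap2 ρ β x * x ^ 2 - om ρ β x * (2 * x)) / (x ^ 2) ^ 2) x := by
    intro x hx
    have hx1 : |x| < 1 := by
      rw [abs_of_pos hx.1]; exact hx.2
    have a0 : HasDerivAt (fun x : ℝ => x ^ 2) (2 * x) x := by
      simpa using hasDerivAt_pow 2 x
    exact (hasDerivAt_om (β := β) hρ0 hρ1 hx1).fun_div a0 (pow_pos hx.1 2).ne'
  have hmono : MonotoneOn (fun x => om ρ β x / x ^ 2) (Ioo (0 : ℝ) 1) := by
    apply monotoneOn_of_deriv_nonneg (convex_Ioo _ _)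
    · exact fun x hx => (hd x hx).continuousAt.continuousWithinAt
    · exact fun x hx => (hd x (interior_subset hx)).differentiableAt.differentiableWithinAt
    · intro x hx
      rw [interior_Ioo] at hx
      rw [(hd x hx).deriv]
      apply div_nonneg _ (by positivity)
      have := two_om_le (β := β) hρ0 hρ1 hβ hx.1 hx.2
      nlinarith [hx.1, mul_le_mul_of_nonneg_left this hx.1.le]
  exact hmono ⟨hq0, by linarith⟩ ⟨by linarith, hr1⟩ hqr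

end Vale.Agent.P322X
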