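import Mathlib

/-! Three-point lemmas: a function vanishing at two points, one of them a double zero,
with monotone second derivative, has a sign. -/

namespace Vale.Agent.P322X

open Set

/-- Sign pattern of the derivative from Rolle and convexity of the derivative. -/
lemma three_left {f f' f'' : ℝ → ℝ} {x1 x0 : ℝ} (h10 : x1 < x0)
    (hc : ContinuousOn f (Icc x1 x0))
    (hd : ∀ x ∈ Ioc x1 x0, HasDerivAt f (f' x) x)
    (hd2 : ∀ x ∈ Ioc x1 x0, HasDerivAt f' (f'' x) x)
    (hm : MonotoneOn f'' (Ioc x1 x0))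
    (h1 : f x1 = 0) (h0 : f x0 = 0) (hp : f' x0 = 0) :
    ∃ ξ ∈ Ioo x1 x0, f' ξ = 0 ∧ ∀ x ∈ Icc x1 x0, 0 ≤ f x := by
  obtain ⟨ξ, hξ, hξ0⟩ := exists_hasDerivAt_eq_zero h10 hc (h1.trans h0.symm)
    (fun x hx => hd x ⟨hx.1, hx.2.le⟩)
  have hconv : ConvexOn ℝ (Ioc x1 x0) f' := by
    apply MonotoneOn.convexOn_of_deriv (convex_Ioc _ _)
    · exact fun x hx => (hd2 x hx).continuousAt.continuousWithinAt
    · intro x hx
      exact (hd2 x (interior_subset hx)).differentiableAt.differentiableWithinAt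
    · intro x hx y hy hxy
      rw [(hd2 x (interior_subset hx)).deriv, (hd2 y (interior_subset hy)).deriv]
      exact hm (interior_subset hx) (interior_subset hy) hxy
  have hξI : ξ ∈ Ioc x1 x0 := ⟨hξ.1, hξ.2.le⟩
  have hx0I : x0 ∈ Ioc x1 x0 := ⟨h10, le_refl _⟩
  have hpos : ∀ x ∈ Ioc x1 ξ, 0 ≤ f' x := by
    intro x hx
    rcases hx.2.eq_or_lt with rfl | hlt
    · exact hξ0.ge
    · have h := hconv.slope_mono_adjacent ⟨hx.1, by linarith [hξ.2]⟩ hx0I hlt hξ.2
      rw [hξ0, hp] at h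
      have h2 : (0 - f' x) / (ξ - x) ≤ 0 := by simpa using h
      have h3 : 0 < ξ - x := by linarith
      rw [div_le_iff₀ h3] at h2
      linarith
  have hneg : ∀ x ∈ Icc ξ x0, f' x ≤ 0 := by
    intro x hx
    rcases hx.1.eq_or_lt with rfl | h1x
    · exact hξ0.le
    rcases hx.2.eq_or_lt with rfl | hx0
    · exact hp.le
    have h := hconv.slope_mono_adjacent hξI hx0I h1x hx0
    rw [hξ0, hp] at h
    have h3 : 0 < x - ξ := by linarith
    have h4 : 0 < x0 - x := by linarith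
    rw [div_le_div_iff₀ h3 h4] at h
    nlinarith
  have hsub1 : Icc x1 ξ ⊆ Icc x1 x0 := Icc_subset_Icc_right hξ.2.le
  have hsub2 : Icc ξ x0 ⊆ Icc x1 x0 := Icc_subset_Icc_left hξ.1.le
  have hmono : MonotoneOn f (Icc x1 ξ) := by
    apply monotoneOn_of_deriv_nonneg (convex_Icc _ _) (hc.mono hsub1)
    · rw [interior_Icc]
      intro x hx
      exact (hd x ⟨hx.1, by linarith [hx.2, hξ.2]⟩).differentiableAt.differentiableWithinAt
    · rw [interior_Icc]
      intro x hx
      rw [(hd x ⟨hx.1, by linarith [hx.2, hξ.2]⟩).deriv]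
      exact hpos x ⟨hx.1, hx.2.le⟩
  have hanti : AntitoneOn f (Icc ξ x0) := by
    apply antitoneOn_of_deriv_nonpos (convex_Icc _ _) (hc.mono hsub2)
    · rw [interior_Icc]
      intro x hx
      exact (hd x ⟨by linarith [hx.1, hξ.1], hx.2.le⟩).differentiableAt.differentiableWithinAt
    · rw [interior_Icc]
      intro x hx
      rw [(hd x ⟨by linarith [hx.1, hξ.1], hx.2.le⟩).deriv]
      exact hneg x ⟨hx.1.le, hx.2.le⟩
  refine ⟨ξ, hξ, hξ0, ?_⟩
  intro x hx
  rcases le_total x ξ with hle | hle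
  · have := hmono (left_mem_Icc.2 hξ.1.le) ⟨hx.1, hle⟩ hx.1
    rwa [h1] at this
  · have := hanti ⟨hle, hx.2⟩ (right_mem_Icc.2 hξ.2.le) hx.2
    rwa [h0] at this

/-- The same, continued to the right of the double zero. -/
lemma three_point {f f' f'' : ℝ → ℝ} {x1 x0 w : ℝ} (h10 : x1 < x0) (h0w : x0 < w)
    (hc : ContinuousOn f (Icc x1 w))
    (hd : ∀ x ∈ Ioo x1 w, HasDerivAt f (f' x) x)
    (hd2 : ∀ x ∈ Ioo x1 w, HasDerivAt f' (f'' x) x)
    (hm : MonotoneOn f'' (Ioo x1 w))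
    (h1 : f x1 = 0) (h0 : f x0 = 0) (hp : f' x0 = 0) :
    ∀ x ∈ Icc x1 w, 0 ≤ f x := by
  have hsubI : Ioc x1 x0 ⊆ Ioo x1 w := fun x hx => ⟨hx.1, by linarith [hx.2]⟩
  obtain ⟨ξ, hξ, hξ0, hleft⟩ := three_left h10 (hc.mono (Icc_subset_Icc_right h0w.le))
    (fun x hx => hd x (hsubI hx)) (fun x hx => hd2 x (hsubI hx)) (hm.mono hsubI) h1 h0 hp
  have hconv : ConvexOn ℝ (Ioo x1 w) f' := by
    apply MonotoneOn.convexOn_of_deriv (convex_Ioo _ _)
    · exact fun x hx => (hd2 x hx).continuousAt.continuousWithinAt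
    · intro x hx
      exact (hd2 x (interior_subset hx)).differentiableAt.differentiableWithinAt
    · intro x hx y hy hxy
      rw [(hd2 x (interior_subset hx)).deriv, (hd2 y (interior_subset hy)).deriv]
      exact hm (interior_subset hx) (interior_subset hy) hxy
  have hright : ∀ x ∈ Ioo x0 w, 0 ≤ f' x := by
    intro x hx
    have h := hconv.slope_mono_adjacent (x := ξ) (y := x0) (z := x)
      ⟨hξ.1, by linarith [hξ.2]⟩ ⟨by linarith [hx.1], hx.2⟩ hξ.2 hx.1
    rw [hξ0, hp] at h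
    have h3 : 0 < x - x0 := by linarith [hx.1]
    have h4 : (0 : ℝ) ≤ (f' x - 0) / (x - x0) := by simpa using h
    have h5 : 0 ≤ f' x - 0 := by
      by_contra hc
      have : (f' x - 0) / (x - x0) < 0 := div_neg_of_neg_of_pos (not_le.mp hc) h3
      linarith
    linarith
  have hmono : MonotoneOn f (Icc x0 w) := by
    apply monotoneOn_of_deriv_nonneg (convex_Icc _ _) (hc.mono (Icc_subset_Icc_left h10.le))
    · rw [interior_Icc]
      intro x hx
      exact (hd x ⟨by linarith [hx.1], hx.2⟩).differentiableAt.differentiableWithinAt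
    · rw [interior_Icc]
      intro x hx
      rw [(hd x ⟨by linarith [hx.1], hx.2⟩).deriv]
      exact hright x hx
  intro x hx
  rcases le_total x x0 with hle | hle
  · exact hleft x ⟨hx.1, hle⟩
  · have := hmono (left_mem_Icc.2 h0w.le) ⟨hle, hx.2⟩ hle
    rwa [h0] at this

end Vale.Agent.P322X
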